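import Vale.Agent.Lib.P087.P.IntGap
import Vale.Agent.Lib.P087.Stmt

/-! P087 C/Gap: section 4 for all large `r`: the gap is unbounded (helper88). -/

open scoped ENNReal Topology
open MeasureTheory Filter Set

namespace P087

/-- the integrals of the negative and of the positive part, `r = m^4`, `r^(3/2) = m^6` -/
theorem Cgap_int (Phi : ℝ → ℝ≥0∞) (m r C : ℝ) (hm : 2 ≤ m) (hr : r = m ^ 4) (hC : 0 ≤ C)
    (hm2 : 5002 * (19 + 2 * C) < m)
    (h1 : ∀ t : ℝ, 0 < t → Phi t ≤ ENNReal.ofReal (r / t) + ENNReal.ofReal (r ^ 3 / (1 + t)))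
    (h2 : ∀ t : ℝ, 0 < t →
      Phi t ≤ ENNReal.ofReal (244 * r ^ 3) + ENNReal.ofReal (r ^ 3 / (1 + t)))
    (h3 : ∀ t : ℝ, 2500 * m ^ 6 ≤ t → Phi t ≤ ENNReal.ofReal (r / t) +
      ENNReal.ofReal (r ^ 3 / (1 + t) - r ^ 3 / (1 + t) ^ 2)) :
    (∫⁻ t in Ioi (0 : ℝ), (Phi t - ENNReal.ofReal ((r + r ^ 3) / (1 + t)))) +
      ENNReal.ofReal (2 * C) <
      ∫⁻ t in Ioi (0 : ℝ), (ENNReal.ofReal ((r + r ^ 3) / (1 + t)) - Phi t) := by
  have hm0 : 0 < m := by linarith
  have hr0 : 0 < r := by rw [hr]; positivity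
  set δ : ℝ := 1 / (244 * r ^ 3) with hδ
  have hδ0 : 0 < δ := by positivity
  -- negative part
  have hB : ∫⁻ t in Ioi (0 : ℝ), (Phi t - ENNReal.ofReal ((r + r ^ 3) / (1 + t))) ≤
      1 + ENNReal.ofReal (r * Real.log (1 + 1 / δ)) := by
    rw [← Ioc_union_Ioi_eq_Ioi hδ0.le]
    refine (lintegral_union_le _ _ _).trans (add_le_add ?_ ?_)
    · calc ∫⁻ t in Ioc 0 δ, (Phi t - ENNReal.ofReal ((r + r ^ 3) / (1 + t)))
          ≤ ∫⁻ _ in Ioc 0 δ, ENNReal.ofReal (244 * r ^ 3) := by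
            apply setLIntegral_mono' measurableSet_Ioc
            intro t ht
            rw [tsub_le_iff_right]
            refine (h2 t ht.1).trans ?_
            have ht1 : 0 < 1 + t := by linarith [ht.1]
            gcongr
            linarith
        _ = 1 := by
            rw [setLIntegral_const, Real.volume_Ioc, ← ENNReal.ofReal_mul (by positivity), hδ]
            rw [sub_zero, mul_one_div_cancel (by positivity), ENNReal.ofReal_one]
    · rw [← lint_log hr0.le hδ0]
      apply setLIntegral_mono' measurableSet_Ioi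
      intro t ht
      have ht0 : 0 < t := lt_trans hδ0 ht
      rw [tsub_le_iff_right]
      refine (h1 t ht0).trans ?_
      have h5 : r / (1 + t) ≤ r / t := by gcongr; linarith
      rw [← ENNReal.ofReal_add (by positivity) (by positivity),
        ← ENNReal.ofReal_add (by linarith) (by positivity)]
      apply ENNReal.ofReal_le_ofReal
      rw [add_div]
      linarith
  -- positive part
  have hm6 : 1 ≤ m ^ 6 := one_le_pow₀ (by linarith)
  set t0 : ℝ := 2500 * m ^ 6 with ht0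
  have hrge : 16 ≤ r := by
    rw [hr]
    calc (16 : ℝ) = 2 ^ 4 := by norm_num
      _ ≤ m ^ 4 := by gcongr
  have hc : 0 ≤ r ^ 3 - 2 * r := by
    nlinarith [mul_nonneg hr0.le (by nlinarith : (0 : ℝ) ≤ r ^ 2 - 2)]
  have hA : ENNReal.ofReal ((r ^ 3 - 2 * r) / (1 + t0)) ≤
      ∫⁻ t in Ioi (0 : ℝ), (ENNReal.ofReal ((r + r ^ 3) / (1 + t)) - Phi t) := by
    rw [← lint_sq hc (by rw [ht0]; positivity)]
    calc ∫⁻ t in Ioi t0, ENNReal.ofReal ((r ^ 3 - 2 * r) / (1 + t) ^ 2)
        ≤ ∫⁻ t in Ioi t0, (ENNReal.ofReal ((r + r ^ 3) / (1 + t)) - Phi t) := by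
          apply setLIntegral_mono' measurableSet_Ioi
          intro t ht
          have ht1 : t0 < t := ht
          have ht2 : 1 ≤ t := by
            have : (1 : ℝ) ≤ t0 := by rw [ht0]; linarith
            linarith
          have e1 : 0 ≤ r ^ 3 / (1 + t) - r ^ 3 / (1 + t) ^ 2 := by
            have : r ^ 3 / (1 + t) ^ 2 ≤ r ^ 3 / (1 + t) := by
              apply div_le_div_of_nonneg_left (by positivity) (by positivity)
              nlinarith
            linarith
          have e2 : Phi t ≤ ENNReal.ofReal (r / t + (r ^ 3 / (1 + t) - r ^ 3 / (1 + t) ^ 2)) := by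
            rw [ENNReal.ofReal_add (by positivity) e1]
            exact h3 t ht1.le
          refine le_trans ?_ (tsub_le_tsub_left e2 _)
          rw [← ENNReal.ofReal_sub _ (by positivity)]
          apply ENNReal.ofReal_le_ofReal
          have e3 : r / t - r / (1 + t) ≤ 2 * r / (1 + t) ^ 2 := by
            rw [div_sub_div _ _ (by positivity) (by positivity), div_le_div_iff₀ (by positivity)
              (by positivity)]
            have : 0 ≤ r * (1 + t) * (t - 1) := by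
              apply mul_nonneg (by positivity)
              linarith
            nlinarith
          rw [add_div, sub_div]
          linarith
      _ ≤ ∫⁻ t in Ioi (0 : ℝ), (ENNReal.ofReal ((r + r ^ 3) / (1 + t)) - Phi t) := by
          apply lintegral_mono_set
          apply Ioi_subset_Ioi
          rw [ht0]
          positivity
  refine lt_of_le_of_lt (add_le_add_left hB _) (lt_of_lt_of_le ?_ hA)
  have hlog : Real.log (1 + 1 / δ) ≤ 6 + 12 * m := by
    have h4 : 1 + 1 / δ ≤ 2 ^ 8 * m ^ 12 := by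
      have h12 : (1 : ℝ) ≤ m ^ 12 := one_le_pow₀ (by linarith)
      rw [hδ, one_div_one_div, hr, ← pow_mul]
      norm_num
      linarith
    have h5 : Real.log (1 + 1 / δ) ≤ Real.log (2 ^ 8 * m ^ 12) :=
      Real.log_le_log (by positivity) h4
    rw [Real.log_mul (by positivity) (by positivity), Real.log_pow, Real.log_pow] at h5
    have h6 := Real.log_two_lt_d9
    have h7 : Real.log m ≤ m - 1 := Real.log_le_sub_one_of_pos hm0
    push_cast at h5
    linarith
  have h7 : (1 : ℝ≥0∞) + ENNReal.ofReal (r * Real.log (1 + 1 / δ)) + ENNReal.ofReal (2 * C) ≤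
      ENNReal.ofReal (1 + r * (6 + 12 * m) + 2 * C) := by
    rw [ENNReal.ofReal_add (by positivity) (by positivity), ENNReal.ofReal_add (by norm_num)
      (by positivity), ENNReal.ofReal_one]
    gcongr
  refine lt_of_le_of_lt h7 ?_
  rw [ENNReal.ofReal_lt_ofReal_iff_of_nonneg (by positivity), lt_div_iff₀ (by positivity)]
  -- numeric
  have hm4 : (1 : ℝ) ≤ m ^ 4 := one_le_pow₀ (by linarith)
  have hm5 : (1 : ℝ) ≤ m ^ 5 := one_le_pow₀ (by linarith)
  have a1 : 1 + r * (6 + 12 * m) + 2 * C ≤ m ^ 5 * (19 + 2 * C) := by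
    have b1 : m ^ 4 * 6 ≤ m ^ 5 * 3 := by
      have : m ^ 5 = m ^ 4 * m := by ring
      rw [this]
      nlinarith
    have b2 : r * (6 + 12 * m) = m ^ 4 * 6 + 12 * m ^ 5 := by rw [hr]; ring
    have b3 : 2 * C ≤ m ^ 5 * (2 * C) := by nlinarith
    rw [b2]
    nlinarith
  have a2 : 1 + t0 ≤ 2501 * m ^ 6 := by rw [ht0]; linarith
  have a3 : m ^ 12 / 2 ≤ r ^ 3 - 2 * r := by
    have c1 : r ^ 3 = m ^ 12 := by rw [hr]; ring
    have c2 : m ^ 12 = r ^ 2 * r := by rw [hr]; ring
    rw [c1, c2]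
    nlinarith
  calc (1 + r * (6 + 12 * m) + 2 * C) * (1 + t0)
      ≤ (m ^ 5 * (19 + 2 * C)) * (2501 * m ^ 6) := by gcongr
    _ = m ^ 11 * (5002 * (19 + 2 * C)) / 2 := by ring
    _ < m ^ 11 * m / 2 := by gcongr
    _ = m ^ 12 / 2 := by ring
    _ ≤ _ := a3

theorem Cgap_ereal {A B : ℝ≥0∞} {C : ℝ} (hC : 0 ≤ C) (hB : B ≠ ⊤)
    (h : B + ENNReal.ofReal (2 * C) < A) (c : ℝ) :
    (c : EReal) + (C : EReal) <
      ((A / 2 : ℝ≥0∞) : EReal) - ((B / 2 : ℝ≥0∞) : EReal) + (c : EReal) := by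
  lift B to NNReal using hB
  by_cases hA : A = ⊤
  · subst hA
    have h1 : ((⊤ : ℝ≥0∞) / 2 : ℝ≥0∞) = ⊤ := ENNReal.top_div_of_ne_top (by norm_num)
    rw [h1]
    have h2 : (((B : ℝ≥0∞) / 2 : ℝ≥0∞) : EReal) = (((B : ℝ) / 2 : ℝ) : EReal) := by
      rw [← ENNReal.coe_ofNat, ← ENNReal.coe_div (by norm_num)]
      rfl
    rw [h2, EReal.coe_ennreal_top, EReal.top_sub_coe, EReal.top_add_coe, ← EReal.coe_add]
    exact EReal.coe_lt_top _
  · lift A to NNReal using hA
    have h2 : (((B : ℝ≥0∞) / 2 : ℝ≥0∞) : EReal) = (((B : ℝ) / 2 : ℝ) : EReal) := by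
      rw [← ENNReal.coe_ofNat, ← ENNReal.coe_div (by norm_num)]
      rfl
    have h3 : (((A : ℝ≥0∞) / 2 : ℝ≥0∞) : EReal) = (((A : ℝ) / 2 : ℝ) : EReal) := by
      rw [← ENNReal.coe_ofNat, ← ENNReal.coe_div (by norm_num)]
      rfl
    rw [h2, h3, ← EReal.coe_add, ← EReal.coe_sub, ← EReal.coe_add, EReal.coe_lt_coe_iff]
    have h4 : (B : ℝ) + 2 * C < A := by
      have h5 : (B : ℝ≥0∞) + ENNReal.ofReal (2 * C) = ENNReal.ofReal ((B : ℝ) + 2 * C) := by
        rw [ENNReal.ofReal_add B.coe_nonneg (by positivity), ENNReal.ofReal_coe_nnreal]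
      rw [h5, ← ENNReal.ofReal_coe_nnreal, ENNReal.ofReal_lt_ofReal_iff_of_nonneg] at h
      · exact h
      · have := B.coe_nonneg
        positivity
    linarith

end P087
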