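import Vale.Agent.Lib.P087.Main
import Vale.Agent.Lib.P087.C.Gap

/-! P087 C/Bound: `χ* - χ` is unbounded (helper88). -/

open scoped ENNReal Topology
open MeasureTheory Filter Set

namespace P087

variable {H : Type} [NormedAddCommGroup H] [InnerProductSpace ℂ H] [CompleteSpace H]
variable {T : TracialVN H} {r : ℕ}

theorem chiStar_gt_C (F : FockSys T (Let r)) (m : ℕ) (hr : r = m ^ 4) (C : ℝ) (hC : 0 ≤ C)
    (hm : 5002 * (19 + 2 * C) < m) :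
    ((Fintype.card (K r) / 2 * Real.log (2 * Real.pi * Real.exp 1) : ℝ) : EReal) + (C : EReal) <
      chiStar T (Xop F 0) (fun i => F.y (out i)) := by
  have hm2 : (2 : ℝ) ≤ m := by linarith
  have hm0 : (0 : ℝ) < m := by linarith
  have hR : (r : ℝ) = (m : ℝ) ^ 4 := by rw [hr]; push_cast; ring
  have hr1 : 1 ≤ r := by
    rw [hr]
    have : 0 < m := by exact_mod_cast hm0
    exact Nat.one_le_pow _ _ this
  have hpow : (r : ℝ) ^ ((3 : ℝ) / 2) = (m : ℝ) ^ 6 := by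
    rw [hR, show ((m : ℝ) ^ 4) = ((m : ℝ) ^ 2) ^ (2 : ℝ) by
        rw [Real.rpow_two]; ring,
      ← Real.rpow_mul (by positivity), show (2 : ℝ) * (3 / 2) = ((3 : ℕ) : ℝ) by norm_num,
      Real.rpow_natCast]
    ring
  have hcard : Fintype.card (K r) = r + r ^ 3 := by
    simp only [K, J, Fintype.card_sum, Fintype.card_prod, Fintype.card_fin]
    ring
  have hJ : ((Finset.univ : Finset (J r)).card : ℝ) = (r : ℝ) ^ 3 := by
    rw [Finset.card_univ]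
    simp only [J, Fintype.card_prod, Fintype.card_fin]
    push_cast
    ring
  have hi : ∀ q : ℝ, 0 < q → ∀ i : K r, ∃ ξ, Rel F q i ξ ∧ ‖ξ‖ ^ 2 ≤ 1 / q ^ 2 := by
    intro q hq i
    obtain ⟨η, h1, h2⟩ := exists_conj_out F q hq i
    refine ⟨η, h1.2, ?_⟩
    calc ‖η‖ ^ 2 ≤ (q⁻¹) ^ 2 := pow_le_pow_left₀ (norm_nonneg _) h2 2
      _ = 1 / q ^ 2 := by rw [inv_pow, one_div]
  have hii : ∀ q : ℝ, 0 < q → ∀ j : J r, ∃ ξ, Rel F q (Sum.inr j) ξ ∧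
      ‖ξ‖ ^ 2 ≤ 1 / (1 + q ^ 2) := by
    intro q hq j
    obtain ⟨η, h1, h2⟩ := exists_conj_inn F q j
    exact ⟨η, h1.2, h2⟩
  have hiii : ∀ q : ℝ, 0 < q → ∀ a : Fin r, ∃ ξ, Rel F q (Sum.inl a) ξ ∧
      ‖ξ‖ ^ 2 ≤ 244 * (r : ℝ) ^ 2 :=
    fun q _ a => ⟨XiC F a, inner_XiC_X F q a, norm_XiC F a⟩
  have hiv : ∀ q : ℝ, 0 < q → 2500 * (m : ℝ) ^ 6 ≤ q ^ 2 → ∀ d : ℕ,
      ∃ ζ : J r → H, (∀ j (w : List (K r)), w.length ≤ d →
        inner ℂ (ζ j) (wordOp (Xop F q) w T.Ω) = dq T (Xop F q) (Sum.inr j) w) ∧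
        ∑ j, ‖ζ j‖ ^ 2 ≤ (r : ℝ) ^ 3 / (1 + q ^ 2) - (r : ℝ) ^ 3 / (1 + q ^ 2) ^ 2 := by
    intro q hq hq2 d
    refine X4 F q hq hr1 (by rw [hpow]; exact hq2) ?_ d
    rw [hpow, hR, ← pow_mul]
    have h1 : (95038 : ℝ) ≤ m := by linarith
    have h2 : (16384 : ℝ) ≤ (m : ℝ) ^ 6 := by
      calc (16384 : ℝ) ≤ m := by linarith
        _ ≤ (m : ℝ) ^ 6 := le_self_pow₀ (by linarith) (by norm_num)
    calc 16384 * (m : ℝ) ^ 6 ≤ (m : ℝ) ^ 6 * (m : ℝ) ^ 6 := by gcongr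
      _ = (m : ℝ) ^ (4 * 3) := by ring
  have hex : ∀ q : ℝ, 0 < q → ∀ j : K r, ∃ ξ : H, ∀ w,
      inner ℂ ξ (wordOp (Xop F q) w T.Ω) = dq T (Xop F q) j w := fun q hq j => by
    obtain ⟨ξ, h, _⟩ := hi q hq j
    exact ⟨ξ, h⟩
  have hl1 : ∀ q : ℝ, 0 < q → ∀ d : ℕ, ∃ ζ : Fin r → H, (∀ (a : Fin r) (w : List (K r)),
      w.length ≤ d → inner ℂ (ζ a) (wordOp (Xop F q) w T.Ω) = dq T (Xop F q) (Sum.inl a) w) ∧
      ∑ a, ‖ζ a‖ ^ 2 ≤ (r : ℝ) / q ^ 2 := fun q hq d => by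
    have h := fun a : Fin r => hi q hq (Sum.inl a)
    choose ζ h1 h2 using h
    refine ⟨ζ, fun a w _ => h1 a w, ?_⟩
    calc ∑ a, ‖ζ a‖ ^ 2 ≤ ∑ _a : Fin r, 1 / q ^ 2 := Finset.sum_le_sum fun a _ => h2 a
      _ = (r : ℝ) / q ^ 2 := by
          rw [Finset.sum_const, Finset.card_univ, Fintype.card_fin, nsmul_eq_mul]
          ring
  have hl2 : ∀ q : ℝ, 0 < q → ∀ d : ℕ, ∃ ζ : Fin r → H, (∀ (a : Fin r) (w : List (K r)),
      w.length ≤ d → inner ℂ (ζ a) (wordOp (Xop F q) w T.Ω) = dq T (Xop F q) (Sum.inl a) w) ∧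
      ∑ a, ‖ζ a‖ ^ 2 ≤ 244 * (r : ℝ) ^ 3 := fun q hq d => by
    have h := fun a : Fin r => hiii q hq a
    choose ζ h1 h2 using h
    refine ⟨ζ, fun a w _ => h1 a w, ?_⟩
    calc ∑ a, ‖ζ a‖ ^ 2 ≤ ∑ _a : Fin r, 244 * (r : ℝ) ^ 2 := Finset.sum_le_sum fun a _ => h2 a
      _ = 244 * (r : ℝ) ^ 3 := by
          rw [Finset.sum_const, Finset.card_univ, Fintype.card_fin, nsmul_eq_mul]
          ring
  have hrr : ∀ q : ℝ, 0 < q → ∀ d : ℕ, ∃ ζ : J r → H, (∀ (a : J r) (w : List (K r)),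
      w.length ≤ d → inner ℂ (ζ a) (wordOp (Xop F q) w T.Ω) = dq T (Xop F q) (Sum.inr a) w) ∧
      ∑ a, ‖ζ a‖ ^ 2 ≤ (r : ℝ) ^ 3 / (1 + q ^ 2) := fun q hq d => by
    have h := fun a : J r => hii q hq a
    choose ζ h1 h2 using h
    refine ⟨ζ, fun a w _ => h1 a w, ?_⟩
    calc ∑ a, ‖ζ a‖ ^ 2 ≤ ∑ _a : J r, 1 / (1 + q ^ 2) := Finset.sum_le_sum fun a _ => h2 a
      _ = (r : ℝ) ^ 3 / (1 + q ^ 2) := by
          rw [Finset.sum_const, nsmul_eq_mul, hJ]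
          ring
  have hgap := Cgap_int (fun t => PhiStar T (pert (Xop F 0) (fun i => F.y (out i)) t)) m r C
    hm2 hR hC hm (fun t ht => by
      rw [pert_X]
      have hq : 0 < Real.sqrt t := Real.sqrt_pos.mpr ht
      have h := PhiStar_le_blocks (T := T) (Xop F (Real.sqrt t)) (hex _ hq) _ _ (hl1 _ hq)
        (hrr _ hq)
      rwa [Real.sq_sqrt ht.le] at h) (fun t ht => by
      rw [pert_X]
      have hq : 0 < Real.sqrt t := Real.sqrt_pos.mpr ht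
      have h := PhiStar_le_blocks (T := T) (Xop F (Real.sqrt t)) (hex _ hq) _ _ (hl2 _ hq)
        (hrr _ hq)
      rwa [Real.sq_sqrt ht.le] at h) (fun t ht => by
      rw [pert_X]
      have ht0 : 0 < t := lt_of_lt_of_le (by positivity) ht
      have hq : 0 < Real.sqrt t := Real.sqrt_pos.mpr ht0
      have h := PhiStar_le_blocks (T := T) (Xop F (Real.sqrt t)) (hex _ hq) _ _ (hl1 _ hq)
        (hiv _ hq (by rw [Real.sq_sqrt ht0.le]; exact ht))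
      rwa [Real.sq_sqrt ht0.le] at h)
  have hn' : (Fintype.card (K r) : ℝ) = r + (r : ℝ) ^ 3 := by rw [hcard]; push_cast; ring
  unfold chiStar
  rw [hn']
  have hB : ∫⁻ t in Ioi (0 : ℝ), (PhiStar T (pert (Xop F 0) (fun i => F.y (out i)) t) -
      ENNReal.ofReal (((r : ℝ) + (r : ℝ) ^ 3) / (1 + t))) ≠ ⊤ := by
    intro h
    rw [h, top_add] at hgap
    exact not_top_lt hgap
  exact Cgap_ereal hC hB hgap _

end P087
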