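import Vale.Agent.Lib.P087.C.Stmt3
import Vale.Agent.Lib.P087.C.Bound

/-! P087, third statement: transport from `K r` to `Fin n` (helper88). -/

open scoped ENNReal
open MeasureTheory Filter

namespace P087C

variable {H : Type} [NormedAddCommGroup H] [InnerProductSpace ℂ H] [CompleteSpace H] {n : ℕ}
variable {κ : Type} [DecidableEq κ] [Fintype κ]

theorem B3_list (e : Fin n ≃ κ) (u : List κ) :
    ∃ (p : ℕ) (w : Fin p → Fin n), p = u.length ∧ List.ofFn (fun l => e (w l)) = u := by
  refine ⟨u.length, fun l => e.symm (u.get l), rfl, ?_⟩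
  simp

theorem B3_mon {R : Type} [Monoid R] (e : Fin n ≃ κ) (X : κ → R) {p : ℕ} (w : Fin p → Fin n) :
    mon (fun j => X (e j)) w = ((List.ofFn fun l => e (w l)).map X).prod := by
  unfold mon
  rw [List.map_ofFn]
  rfl

theorem B3_tauD (T : P087.TracialVN H) (e : Fin n ≃ κ) (X : κ → H →L[ℂ] H) (j : Fin n) {p : ℕ}
    (w : Fin p → Fin n) :
    tauD T.Ω (fun j => X (e j)) j w = P087.dq T X (e j) (List.ofFn fun l => e (w l)) := by
  unfold tauD P087.dq
  rw [List.length_ofFn, Finset.sum_range]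
  refine Finset.sum_congr rfl fun l _ => ?_
  have h1 : ((List.ofFn fun l => e (w l))[(l : ℕ)]? = some (e j)) ↔ w l = j := by
    rw [List.getElem?_ofFn]
    simp
  have h2 : (List.ofFn fun i => X (e (w i))) = (List.ofFn fun l => e (w l)).map X := by
    rw [List.map_ofFn]
    rfl
  by_cases h : w l = j
  · rw [if_pos h, if_pos (h1.2 h), h2, ← List.map_take, ← List.map_drop]
    rfl
  · rw [if_neg h, if_neg (fun h' => h (h1.1 h'))]

theorem B3_L2 (T : P087.TracialVN H) (e : Fin n ≃ κ) (X : κ → H →L[ℂ] H) :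
    L2 T.Ω (fun j => X (e j)) = P087.L2 T X := by
  unfold L2 P087.L2
  congr 2
  ext ζ
  constructor
  · rintro ⟨p, w, rfl⟩
    exact ⟨List.ofFn fun l => e (w l), by rw [B3_mon]; rfl⟩
  · rintro ⟨u, rfl⟩
    obtain ⟨p, w, _, hw⟩ := B3_list e u
    exact ⟨p, w, by rw [B3_mon, hw]; rfl⟩

theorem B3_ssum_reverse {A : Type} [AddCommMonoid A] (j : κ) (F : List κ → List κ → A)
    (w : List κ) :
    P087.ssum j F w.reverse = P087.ssum j (fun a b => F b.reverse a.reverse) w := by
  induction w generalizing F with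
  | nil => rw [List.reverse_nil, P087.ssum_nil, P087.ssum_nil]
  | cons a w ih =>
    rw [List.reverse_cons, P087.ssum_append, P087.ssum_cons, P087.ssum_cons, P087.ssum_nil,
      add_zero, ih, add_comm]
    congr 1
    · simp
    · simp only [List.reverse_cons]

theorem B3_star_word (X : κ → H →L[ℂ] H) (hX : ∀ i, IsSelfAdjoint (X i)) (u : List κ) :
    star (P087.wordOp X u) = P087.wordOp X u.reverse := by
  unfold P087.wordOp
  induction u with
  | nil => simp
  | cons a u ih =>
    rw [List.map_cons, List.prod_cons, star_mul, ih, (hX a).star_eq, List.reverse_cons,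
      List.map_append, List.prod_append]
    simp

theorem B3_conj_tr (T : P087.TracialVN H) (X : κ → H →L[ℂ] H) (hX : ∀ i, IsSelfAdjoint (X i))
    (u : List κ) : starRingEnd ℂ (T.tr (P087.wordOp X u)) = T.tr (P087.wordOp X u.reverse) := by
  unfold P087.TracialVN.tr
  rw [inner_conj_symm, ← B3_star_word X hX, ContinuousLinearMap.star_eq_adjoint,
    ContinuousLinearMap.adjoint_inner_right]

theorem B3_conj_dq (T : P087.TracialVN H) (X : κ → H →L[ℂ] H) (hX : ∀ i, IsSelfAdjoint (X i))
    (j : κ) (u : List κ) : starRingEnd ℂ (P087.dq T X j u.reverse) = P087.dq T X j u := by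
  have h1 : ∀ u, P087.dq T X j u = P087.ssum j (fun a b => T.tr (P087.wordOp X a) *
      T.tr (P087.wordOp X b)) u := fun u => rfl
  rw [h1, h1, B3_ssum_reverse]
  unfold P087.ssum
  rw [map_sum]
  refine Finset.sum_congr rfl fun l _ => ?_
  split_ifs with h
  · rw [map_mul, B3_conj_tr T X hX, B3_conj_tr T X hX, List.reverse_reverse, List.reverse_reverse,
      mul_comm]
  · exact map_zero _

theorem B3_isConj (T : P087.TracialVN H) (e : Fin n ≃ κ) (X : κ → H →L[ℂ] H)
    (hX : ∀ i, IsSelfAdjoint (X i)) (j : Fin n) (ξ : H) :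
    IsConjVar T.Ω (fun j => X (e j)) j ξ ↔ P087.IsConj T X (e j) ξ := by
  unfold IsConjVar P087.IsConj
  rw [B3_L2]
  refine and_congr_right fun _ => ?_
  have key : ∀ u : List κ, inner ℂ (star (P087.wordOp X u) T.Ω) ξ =
      starRingEnd ℂ (inner ℂ ξ (P087.wordOp X u.reverse T.Ω)) := by
    intro u
    rw [inner_conj_symm, B3_star_word X hX]
  constructor
  · intro h u
    obtain ⟨p, w, _, hw⟩ := B3_list e u.reverse
    have h1 := h p w
    rw [B3_tauD, hw, B3_mon, hw] at h1
    have h2 := key u.reverse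
    rw [List.reverse_reverse] at h2
    have h3 : starRingEnd ℂ (inner ℂ ξ (P087.wordOp X u T.Ω)) = P087.dq T X (e j) u.reverse :=
      h2.symm.trans h1
    have h4 := congrArg (starRingEnd ℂ) h3
    rw [Complex.conj_conj, B3_conj_dq T X hX] at h4
    exact h4
  · intro h p w
    rw [B3_tauD, B3_mon]
    set u := List.ofFn fun l => e (w l) with hu
    have h2 := key u
    rw [h u.reverse, B3_conj_dq T X hX] at h2
    exact h2

theorem B3_Fisher (T : P087.TracialVN H) (e : Fin n ≃ κ) (X : κ → H →L[ℂ] H)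
    (hX : ∀ i, IsSelfAdjoint (X i)) :
    Fisher T.Ω (fun j => X (e j)) = P087.PhiStar T X := by
  unfold Fisher P087.PhiStar
  refine le_antisymm ?_ ?_
  · refine le_iInf₂ fun η hη => ?_
    refine (iInf₂_le (fun j => η (e j)) fun j => (B3_isConj T e X hX j _).2 (hη (e j))).trans ?_
    rw [Equiv.sum_comp e fun i => ENNReal.ofReal (‖η i‖ ^ 2)]
  · refine le_iInf₂ fun ξ hξ => ?_
    refine (iInf₂_le (fun i => ξ (e.symm i)) fun i => ?_).trans ?_
    · have h := (B3_isConj T e X hX (e.symm i) _).1 (hξ (e.symm i))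
      rwa [Equiv.apply_symm_apply] at h
    · rw [Equiv.sum_comp e.symm fun i => ENNReal.ofReal (‖ξ i‖ ^ 2)]

theorem B3_chiStar (T : P087.TracialVN H) (e : Fin n ≃ κ) (X S : κ → H →L[ℂ] H)
    (hX : ∀ i, IsSelfAdjoint (X i)) (hS : ∀ i, IsSelfAdjoint (S i)) :
    chiStar T.Ω (fun j => X (e j)) (fun j => S (e j)) = P087.chiStar T X S := by
  have hn : Fintype.card κ = n := by rw [← Fintype.card_congr e, Fintype.card_fin]
  have h1 : ∀ t, FisherAt T.Ω (fun j => X (e j)) (fun j => S (e j)) t =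
      P087.PhiStar T (P087.pert X S t) := by
    intro t
    refine B3_Fisher T e (P087.pert X S t) fun i => ?_
    unfold P087.pert
    refine (hX i).add ?_
    rw [isSelfAdjoint_iff, star_smul, (hS i).star_eq, Complex.star_def, Complex.conj_ofReal]
  unfold chiStar P087.chiStar
  rw [hn]
  simp only [h1]

theorem B3_herm {k : ℕ} (v : Fin k → Fin k → ℝ) : hermMat v = P087.herm k v := by
  ext i j
  unfold hermMat P087.herm
  split_ifs
  · rfl
  · rw [mul_comm Complex.I]
  · rw [mul_comm Complex.I]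

theorem B3_vol (T : P087.TracialVN H) (e : Fin n ≃ κ) (X : κ → H →L[ℂ] H) (R : ℝ) (m k : ℕ)
    (ε : ℝ) : vol (Micro T.Ω (fun j => X (e j)) R m k ε) = volume (P087.Gam T X R m k ε) := by
  have hmp := volume_measurePreserving_piCongrLeft (fun _ : κ => Fin k → Fin k → ℝ) e
  rw [← hmp.measure_preimage_equiv]
  unfold vol
  congr 1
  ext v
  set v' := MeasurableEquiv.piCongrLeft (fun _ : κ => Fin k → Fin k → ℝ) e v with hv'
  have h1 : ∀ j, v' (e j) = v j := fun j => by
    rw [hv']
    exact Equiv.piCongrLeft_apply_apply (fun _ : κ => Fin k → Fin k → ℝ) e v j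
  have h2 : (fun j => hermMat (v j)) = fun j => P087.herm k (v' (e j)) := by
    funext j
    rw [B3_herm, h1]
  change (fun j => hermMat (v j)) ∈ Micro T.Ω (fun j => X (e j)) R m k ε ↔
    v' ∈ P087.Gam T X R m k ε
  rw [h2]
  constructor
  · rintro ⟨ha, hb⟩
    refine ⟨fun i => ?_, fun u hu1 hu2 => ?_⟩
    · have h4 := (ha (e.symm i)).2
      simp only [Equiv.apply_symm_apply] at h4
      exact h4
    · obtain ⟨p, w, hp, hw⟩ := B3_list e u
      have h3 := hb p (by omega) (by omega) w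
      rw [B3_mon e (fun i => P087.herm k (v' i)), B3_mon, hw, one_div] at h3
      exact h3
  · rintro ⟨ha, hb⟩
    refine ⟨fun j => ⟨P087.herm_isHermitian k _, ha (e j)⟩, fun p hp1 hp2 w => ?_⟩
    have h3 := hb (List.ofFn fun l => e (w l)) (by rw [List.length_ofFn]; exact hp1)
      (by rw [List.length_ofFn]; exact hp2)
    rw [B3_mon e (fun i => P087.herm k (v' i)), B3_mon, one_div]
    exact h3

theorem B3_chi (T : P087.TracialVN H) (e : Fin n ≃ κ) (X : κ → H →L[ℂ] H) :
    chi T.Ω (fun j => X (e j)) = P087.chi T X := by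
  have hn : Fintype.card κ = n := by rw [← Fintype.card_congr e, Fintype.card_fin]
  unfold chi P087.chi chiR P087.chiR
  rw [hn]
  simp only [B3_vol]

theorem B3_free (T : P087.TracialVN H) (e : Fin n ≃ κ) (X S : κ → H →L[ℂ] H)
    (h : P087.FreeSemicircularFrom T X S) :
    IsSemicircularNoise T.Ω (fun j => X (e j)) (fun j => S (e j)) := by
  refine ⟨fun j k => h.1 (e j) k, ?_⟩
  intro m i a hne ha h0
  refine h.2 m (fun l => (i l).map e) a (fun l hl => hne l ?_) (fun l => ?_) h0
  · exact Option.map_injective e.injective hl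
  · have h1 := ha l
    rcases hi : i l with _ | j
    · rw [hi] at h1
      have h2 : Set.range (fun j => X (e j)) = Set.range X := by
        ext x
        constructor
        · rintro ⟨j, rfl⟩
          exact ⟨e j, rfl⟩
        · rintro ⟨i, rfl⟩
          exact ⟨e.symm i, by simp⟩
      have h3 : a l ∈ Algebra.adjoin ℂ (Set.range fun j => X (e j)) := h1
      rw [h2] at h3
      exact h3
    · rw [hi] at h1
      exact h1

/-- the gap `χ* - χ` is unbounded on tuples with `χ > -∞` -/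
theorem unbounded_gap (C : ℝ) :
    ∃ (H : Type) (_ : NormedAddCommGroup H) (_ : InnerProductSpace ℂ H) (_ : CompleteSpace H)
      (M : VonNeumannAlgebra H) (Ω : H) (n : ℕ) (X S : Fin n → H →L[ℂ] H),
      IsTracial M Ω ∧ 1 ≤ n ∧ (∀ j, X j ∈ M ∧ IsSelfAdjoint (X j)) ∧
      (∀ j, S j ∈ M ∧ IsSelfAdjoint (S j)) ∧ IsSemicircularNoise Ω X S ∧
      ⊥ < chi Ω X ∧ chi Ω X + (C : EReal) < chiStar Ω X S := by
  obtain ⟨m, hm⟩ := exists_nat_gt (5002 * (19 + 2 * |C|))
  have hC : 0 ≤ |C| := abs_nonneg C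
  have hm0 : 0 < m := by
    have : (0 : ℝ) < m := by linarith
    exact_mod_cast this
  obtain ⟨r, hr⟩ : ∃ r : ℕ, r = m ^ 4 := ⟨_, rfl⟩
  obtain ⟨H, i1, i2, i3, T, ⟨F⟩⟩ := P087.exists_fock (P087.Let r)
  let e : Fin (Fintype.card (P087.K r)) ≃ P087.K r := (Fintype.equivFin (P087.K r)).symm
  have hXs : ∀ i, IsSelfAdjoint (P087.Xop F 0 i) := fun i => P087.Xop_sa F 0 i
  have hSs : ∀ i, IsSelfAdjoint (F.y (P087.out i)) := fun i => F.y_sa _
  refine ⟨H, i1, i2, i3, T.M, T.Ω, Fintype.card (P087.K r), fun j => P087.Xop F 0 (e j),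
    fun j => F.y (P087.out (e j)), ⟨T.norm_Ω, T.trace_comm, fun a ha h0 => ?_⟩, ?_,
    fun j => ⟨P087.Xop_mem F 0 _, hXs _⟩, fun j => ⟨F.y_mem _, hSs _⟩,
    B3_free T e _ _ (P087.free_semicircular F), ?_, ?_⟩
  · refine T.faithful a ha ?_
    unfold tau at h0
    rw [mul_apply_eq_comp, ContinuousLinearMap.star_eq_adjoint,
      ContinuousLinearMap.adjoint_inner_right, inner_self_eq_zero] at h0
    exact h0
  · rw [Nat.one_le_iff_ne_zero]
    have hr0 : 0 < r := by rw [hr]; positivity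
    have : Nonempty (P087.K r) := ⟨Sum.inl ⟨0, hr0⟩⟩
    exact Fintype.card_ne_zero
  · rw [B3_chi]
    exact P087.chi_gt_bot F
  · rw [B3_chi, B3_chiStar T e _ _ hXs hSs]
    have h1 := P087.chiStar_gt_C F m hr |C| hC hm
    refine lt_of_le_of_lt ?_ h1
    refine add_le_add (P087.chi_le F) ?_
    exact EReal.coe_le_coe_iff.2 (le_abs_self C)

end P087C
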