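import Mathlib

/-! P087, third statement: the two free entropies for tuples indexed by `Fin n`. -/

open scoped ENNReal
open MeasureTheory Filter

namespace P087C

section

variable {H : Type} [NormedAddCommGroup H] [InnerProductSpace ℂ H] [CompleteSpace H] {n : ℕ}

/-- the vector state `τ(a) = ⟪Ω, a Ω⟫` -/
noncomputable def tau (Ω : H) (a : H →L[ℂ] H) : ℂ := inner ℂ Ω (a Ω)

/-- `(M, τ)` is a von Neumann algebra with a faithful normal tracial state, the vector state of `Ω` -/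
def IsTracial (M : VonNeumannAlgebra H) (Ω : H) : Prop :=
  ‖Ω‖ = 1 ∧ (∀ a ∈ M, ∀ b ∈ M, tau Ω (a * b) = tau Ω (b * a)) ∧
    ∀ a ∈ M, tau Ω (star a * a) = 0 → a = 0

/-- the monomial `X_{w_1} ⋯ X_{w_p}` (for operators and for matrices) -/
def mon {R : Type} [Monoid R] (X : Fin n → R) {p : ℕ} (w : Fin p → Fin n) : R :=
  (List.ofFn fun l => X (w l)).prod

/-- `(τ ⊗ τ)(∂_j P)(X)` for the monomial `P = x_{w_1} ⋯ x_{w_p}`: sum over all `l` with `w_l = j` of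
`τ(X_{w_1} ⋯ X_{w_{l-1}}) τ(X_{w_{l+1}} ⋯ X_{w_p})` -/
noncomputable def tauD (Ω : H) (X : Fin n → H →L[ℂ] H) (j : Fin n) {p : ℕ} (w : Fin p → Fin n) : ℂ :=
  ∑ l : Fin p, if w l = j then
    tau Ω ((List.ofFn fun i => X (w i)).take l).prod *
      tau Ω ((List.ofFn fun i => X (w i)).drop (l + 1)).prod
  else 0

/-- `L²(W*(X), τ)`, the closure of the polynomials in `X` applied to `Ω` -/
noncomputable def L2 (Ω : H) (X : Fin n → H →L[ℂ] H) : Submodule ℂ H :=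
  (Submodule.span ℂ {ζ | ∃ (p : ℕ) (w : Fin p → Fin n), ζ = mon X w Ω}).topologicalClosure

/-- `ξ ∈ L²(W*(X), τ)` is the conjugate variable `ξ_j`: `τ(P(X) ξ) = (τ ⊗ τ)(∂_j P)(X)` for all
monomials `P`, where `τ(a ξ) = ⟪a* Ω, ξ⟫` for `ξ ∈ L²` -/
def IsConjVar (Ω : H) (X : Fin n → H →L[ℂ] H) (j : Fin n) (ξ : H) : Prop :=
  ξ ∈ L2 Ω X ∧ ∀ (p : ℕ) (w : Fin p → Fin n), inner ℂ (star (mon X w) Ω) ξ = tauD Ω X j w

/-- the free Fisher information `Φ*(X) = Σ_j ‖ξ_j‖²` (conjugate variables are unique), `+∞` if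
conjugate variables do not exist -/
noncomputable def Fisher (Ω : H) (X : Fin n → H →L[ℂ] H) : ℝ≥0∞ :=
  ⨅ (ξ : Fin n → H) (_ : ∀ j, IsConjVar Ω X j (ξ j)), ∑ j, ENNReal.ofReal (‖ξ j‖ ^ 2)

/-- `Φ*(X + √t S)` -/
noncomputable def FisherAt (Ω : H) (X S : Fin n → H →L[ℂ] H) (t : ℝ) : ℝ≥0∞ :=
  Fisher Ω fun j => X j + ((Real.sqrt t : ℝ) : ℂ) • S j

/-- `χ*(X) = ½ ∫_0^∞ (n/(1+t) - Φ*(X + √t S)) dt + (n/2) log (2πe)`; the integral is the integral of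
the positive part minus the integral of the negative part -/
noncomputable def chiStar (Ω : H) (X S : Fin n → H →L[ℂ] H) : EReal :=
  (((∫⁻ t in Set.Ioi (0 : ℝ), (ENNReal.ofReal (n / (1 + t)) - FisherAt Ω X S t)) / 2 : ℝ≥0∞) : EReal)
  - (((∫⁻ t in Set.Ioi (0 : ℝ), (FisherAt Ω X S t - ENNReal.ofReal (n / (1 + t)))) / 2 : ℝ≥0∞) : EReal)
  + ((n / 2 * Real.log (2 * Real.pi * Real.exp 1) : ℝ) : EReal)

/-- the self-adjoint `k × k` matrix with coordinates `v`; the coordinates are orthonormal for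
`⟨A,B⟩ = Tr(AB)` -/
noncomputable def hermMat {k : ℕ} (v : Fin k → Fin k → ℝ) : Matrix (Fin k) (Fin k) ℂ := fun i j =>
  if i = j then (v i i : ℂ)
  else if i < j then ((v i j : ℂ) + (v j i : ℂ) * Complex.I) / (Real.sqrt 2 : ℝ)
  else ((v j i : ℂ) - (v i j : ℂ) * Complex.I) / (Real.sqrt 2 : ℝ)

/-- Lebesgue measure on `(M_k^sa)^n` (of the self-adjoint tuples in `G`) -/
noncomputable def vol {k : ℕ} (G : Set (Fin n → Matrix (Fin k) (Fin k) ℂ)) : ℝ≥0∞ :=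
  volume {v : Fin n → Fin k → Fin k → ℝ | (fun j => hermMat (v j)) ∈ G}

/-- the microstates `Γ_R(X; m, k, ε)` -/
def Micro (Ω : H) (X : Fin n → H →L[ℂ] H) (R : ℝ) (m k : ℕ) (ε : ℝ) :
    Set (Fin n → Matrix (Fin k) (Fin k) ℂ) :=
  {A | (∀ j, (A j).IsHermitian ∧ ‖Matrix.toEuclideanCLM (n := Fin k) (𝕜 := ℂ) (A j)‖ ≤ R) ∧
    ∀ p : ℕ, 1 ≤ p → p ≤ m → ∀ w : Fin p → Fin n,
      ‖1 / (k : ℂ) * (mon A w).trace - tau Ω (mon X w)‖ < ε}

/-- `χ_R(X)` -/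
noncomputable def chiR (Ω : H) (X : Fin n → H →L[ℂ] H) (R : ℝ) : EReal :=
  ⨅ (m : ℕ) (ε : ℝ) (_ : 0 < ε),
    limsup (fun k : ℕ => ((((k : ℝ) ^ 2)⁻¹ : ℝ) : EReal) * ENNReal.log (vol (Micro Ω X R m k ε))
      + ((n / 2 * Real.log k : ℝ) : EReal)) atTop

/-- the microstates free entropy `χ(X) = sup_R χ_R(X)` -/
noncomputable def chi (Ω : H) (X : Fin n → H →L[ℂ] H) : EReal :=
  ⨆ (R : ℝ) (_ : 0 < R), chiR Ω X R

/-- freeness of a family of unital subalgebras: alternating products of centered elements have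
trace `0` -/
def IsFree (Ω : H) {ι : Type} (A : ι → Subalgebra ℂ (H →L[ℂ] H)) : Prop :=
  ∀ (m : ℕ) (i : Fin (m + 1) → ι) (a : Fin (m + 1) → H →L[ℂ] H),
    (∀ l : Fin m, i l.castSucc ≠ i l.succ) → (∀ l, a l ∈ A (i l)) → (∀ l, tau Ω (a l) = 0) →
    tau Ω (List.ofFn a).prod = 0

/-- `S_1, …, S_n` are free semicirculars of variance `1` (moments: Catalan numbers), free from `X` -/
def IsSemicircularNoise (Ω : H) (X S : Fin n → H →L[ℂ] H) : Prop :=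
  (∀ j (k : ℕ), tau Ω (S j ^ (2 * k)) = (catalan k : ℂ) ∧ tau Ω (S j ^ (2 * k + 1)) = 0) ∧
  IsFree Ω (fun o : Option (Fin n) => match o with
    | none => Algebra.adjoin ℂ (Set.range X)
    | some j => Algebra.adjoin ℂ {S j})

end

end P087C
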